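import Mathlib
import Vale.Agent.P192.Tree.Lines

/-!
P192: no infinite finitely presented periodic group acts faithfully by bounded displacements over a
forest with uniformly bounded preimages of balls.
-/

universe u v w

namespace Vale.Agent.Results.P192.NoFpPeriodicTreeLike

open Vale.Agent.P192.Tree

/-- A periodic finitely presented group has finite image in every action by bounded displacements
over a forest whose balls have uniformly boundedly many preimages, and also in every action by
bounded displacements along the orbits of one bijection; it is finite if the action is faithful. -/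
theorem result :
    ∀ (G : Type u) [Group G] [Group.IsFinitelyPresented G], (∀ g : G, IsOfFinOrder g) →
      ∀ (X : Type v) (ρ : G →* Equiv.Perm X),
        ((∃ (V : Type w) (T : SimpleGraph V) (π : X → V), T.IsAcyclic ∧
            (∀ r : ℕ, ∃ c : ℕ, ∀ (a : V) (s : Finset X),
              (∀ x ∈ s, ∃ p : T.Walk a (π x), p.length ≤ r) → s.card ≤ c) ∧
            ∀ g, ∃ N : ℕ, ∀ x, ∃ p : T.Walk (π x) (π (ρ g x)), p.length ≤ N) ∨
          ∃ ψ : Equiv.Perm X, ∀ g, ∃ N : ℕ, ∀ x, ∃ k : ℤ, |k| ≤ N ∧ ρ g x = (ψ ^ k) x) →
          (Set.range ρ).Finite ∧ (Function.Injective ρ → Finite G) := by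
  intro G _ hfp hT X ρ h
  have hfin : (Set.range ρ).Finite := by
    rcases h with ⟨V, T, π, hacy, hball, hdisp⟩ | ⟨ψ, hψ⟩
    · exact image_finite_of_forest hT ρ hacy π hball hdisp
    · exact image_finite_of_perm hT ψ ρ hψ
  refine ⟨hfin, fun hinj => ?_⟩
  haveI := hfin.to_subtype
  exact Finite.of_injective (fun g => (⟨ρ g, g, rfl⟩ : Set.range ρ))
    fun a b e => hinj (congrArg Subtype.val e)

end Vale.Agent.Results.P192.NoFpPeriodicTreeLike
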